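import Vale.Agent.P213.Oriental

/-!
# P213: the statement of Q1
-/

open CategoryTheory Limits HomotopicalAlgebra MonoidalCategory Simplicial

noncomputable section

namespace Vale.Agent.P213

/-- The `m`-th oriental, as a functor of `[m]`. -/
def oriental : SimplexCategory ⥤ OmegaCat where
  obj m := ori (Fin (m.len + 1))
  map f := oriMap f.toOrderHom
  map_id _ := oriMap_id
  map_comp f g := oriMap_comp f.toOrderHom g.toOrderHom

/-- The Street nerve. -/
def nerve : OmegaCat ⥤ SSet.{0} := Presheaf.restrictedULiftYoneda.{0} oriental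

/-- The Street nerve of n-categories. -/
def nerveN (n : ℕ∞) : NCat n ⥤ SSet.{0} :=
  (OmegaCat.dimLE n).ι ⋙ nerve

/-- Simplicially homotopic maps (a single homotopy; an equivalence relation for Kan targets). -/
def Htpc {X K : SSet.{0}} (f g : X ⟶ K) : Prop := Nonempty (SSet.Homotopy f g)

/-- Kan fibrations: the right lifting property for horn inclusions. -/
def kanFib : MorphismProperty SSet.{0} := SSet.modelCategoryQuillen.J.rlp

/-- Kan complexes. -/
def IsKan (K : SSet.{0}) : Prop := Arrow.mk (terminal.from K) ∈ kanFib.toSet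

/-- Maps of homotopy classes induced by precomposition. -/
def precompClass {X Y : SSet.{0}} (f : X ⟶ Y) (K : SSet.{0}) :
    Quot (Htpc (X := Y) (K := K)) → Quot (Htpc (X := X) (K := K)) :=
  Quot.lift (fun g => Quot.mk _ (f ≫ g)) fun g g' ⟨H⟩ => Quot.sound
    ⟨SSet.RelativeMorphism.Homotopy.mk (f ▷ Δ[1] ≫ H.h) (by simp [SSet.RelativeMorphism.botEquiv])
      (by simp [SSet.RelativeMorphism.botEquiv]) (by ext n x; exact x.1.2.elim)⟩

/-- Weak homotopy equivalences of simplicial sets: bijective on homotopy classes of maps into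
every Kan complex. -/
def weakEq : MorphismProperty SSet.{0} := fun _ _ f =>
  ∀ K : SSet.{0}, IsKan K → Function.Bijective (precompClass f K)

/-- `Ex²`. -/
def exTwo : SSet.{0} ⥤ SSet.{0} := SSet.ex.{0} ⋙ SSet.ex.{0}

/-- The class `W_n`. -/
def W (n : ℕ∞) : MorphismProperty (NCat n) := weakEq.inverseImage (nerveN n)

/-- The class `F_n`. -/
def F (n : ℕ∞) : MorphismProperty (NCat n) := kanFib.inverseImage (nerveN n ⋙ exTwo)

/-- The class `C_n`. -/
def Cof (n : ℕ∞) : MorphismProperty (NCat n) := (F n ⊓ W n).llp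

/-- The three classes form a model structure. -/
def IsModelStructure (n : ℕ∞) : Prop :=
  ∃ M : ModelCategory (NCat n),
    @fibrations _ _ M.categoryWithFibrations = F n ∧
    @cofibrations _ _ M.categoryWithCofibrations = Cof n ∧
    @weakEquivalences _ _ M.categoryWithWeakEquivalences = W n

/-- The adjunction `c_n Sd² ⊣ Ex² N_n` is a Quillen equivalence with the Kan-Quillen structure
(cofibrations the monomorphisms, so every simplicial set is cofibrant). -/
def IsQuillenEquivalence (n : ℕ∞) : Prop :=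
  ∃ (c : SSet.{0} ⥤ NCat n) (adj : c ⊣ nerveN n),
    F n ≤ kanFib.inverseImage (nerveN n ⋙ exTwo) ∧
    F n ⊓ W n ≤ weakEq.inverseImage (nerveN n ⋙ exTwo) ∧
    ∀ (K : SSet.{0}) (X : NCat n) (T : NCat n) (hT : IsTerminal T)
      (_ : Arrow.mk (hT.from X) ∈ (F n).toSet) (g : (SSet.sd ⋙ SSet.sd ⋙ c).obj K ⟶ X),
      Arrow.mk g ∈ (W n).toSet ↔ Arrow.mk
        (((SSet.sdExAdjunction.comp SSet.sdExAdjunction).comp adj).homEquiv K X g) ∈ weakEq.toSet

/-- P213, Q1. -/
def Q1 : Prop :=
  ∀ n : ℕ∞, 1 ≤ n → IsModelStructure n ∧ IsQuillenEquivalence n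

end Vale.Agent.P213
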