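import Vale.Agent.P213.Statement

/-!
# P213: shared definitions (stable maps, Dwyer inclusions of finite posets)
-/

open CategoryTheory Limits

noncomputable section

namespace Vale.Agent.P213

/-- All pushouts of `f` are weak equivalences with monic nerves. -/
def Stable (n : ℕ∞) {A B : NCat n} (f : A ⟶ B) : Prop :=
  ∀ ⦃C P : NCat n⦄ (g : A ⟶ C) (i : C ⟶ P) (j : B ⟶ P), IsPushout g f i j →
    W n i ∧ Mono ((nerveN n).map i)

/-- The points other than `x`. -/
abbrev Punct {E : Type} (x : E) : Type := {y : E // y ≠ x}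

/-- The cosieve generated by a set. -/
def up {E : Type} [PartialOrder E] (A : Set E) : Set E := {w | ∃ a ∈ A, a ≤ w}

/-- A sieve whose cosieve retracts on it. -/
def IsDwyer {E : Type} [PartialOrder E] (A : Set E) : Prop :=
  (∀ a ∈ A, ∀ b, b ≤ a → b ∈ A) ∧ ∀ w ∈ up A, ∃ a, IsGreatest {a | a ∈ A ∧ a ≤ w} a

/-- An inclusion of sets as a monotone map. -/
def setIncl {E : Type} [PartialOrder E] {A B : Set E} (h : A ⊆ B) : A →o B :=
  ⟨Set.inclusion h, fun _ _ hab => hab⟩

/-- The inclusion of a set as a monotone map. -/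
def setVal {E : Type} [PartialOrder E] (A : Set E) : A →o E :=
  ⟨Subtype.val, fun _ _ hab => hab⟩

end Vale.Agent.P213
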