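import Mathlib

/-!
# P213: strict omega-categories and n-categories (one-sorted presentation)

A strict omega-category is presented by its set of cells, identity cells identified with the cells
they are identities of: `src i` and `tgt i` give the source and target of dimension `i`, `comp i`
composes along dimension `i`, and every cell is of finite dimension.
-/

open CategoryTheory

namespace Vale.Agent.P213

/-- A small strict omega-category. -/
structure OmegaCat : Type 1 where
  Cell : Type
  src : ℕ → Cell → Cell
  tgt : ℕ → Cell → Cell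
  /-- The composite; only its values on composable pairs are meaningful. -/
  comp : ℕ → Cell → Cell → Cell
  src_src : ∀ i x, src i (src i x) = src i x
  tgt_src : ∀ i x, tgt i (src i x) = src i x
  src_tgt : ∀ i x, src i (tgt i x) = tgt i x
  tgt_tgt : ∀ i x, tgt i (tgt i x) = tgt i x
  src_src_lo : ∀ {i j}, i < j → ∀ x, src i (src j x) = src i x
  src_tgt_lo : ∀ {i j}, i < j → ∀ x, src i (tgt j x) = src i x
  tgt_src_lo : ∀ {i j}, i < j → ∀ x, tgt i (src j x) = tgt i x
  tgt_tgt_lo : ∀ {i j}, i < j → ∀ x, tgt i (tgt j x) = tgt i x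
  src_src_hi : ∀ {i j}, i < j → ∀ x, src j (src i x) = src i x
  src_tgt_hi : ∀ {i j}, i < j → ∀ x, src j (tgt i x) = tgt i x
  tgt_src_hi : ∀ {i j}, i < j → ∀ x, tgt j (src i x) = src i x
  tgt_tgt_hi : ∀ {i j}, i < j → ∀ x, tgt j (tgt i x) = tgt i x
  finite_dim : ∀ x, ∃ i, src i x = x
  src_comp : ∀ i x y, tgt i x = src i y → src i (comp i x y) = src i x
  tgt_comp : ∀ i x y, tgt i x = src i y → tgt i (comp i x y) = tgt i y
  src_comp_hi : ∀ {i j}, i < j → ∀ x y, tgt i x = src i y →
    src j (comp i x y) = comp i (src j x) (src j y)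
  tgt_comp_hi : ∀ {i j}, i < j → ∀ x y, tgt i x = src i y →
    tgt j (comp i x y) = comp i (tgt j x) (tgt j y)
  unit_left : ∀ i x, comp i (src i x) x = x
  unit_right : ∀ i x, comp i x (tgt i x) = x
  assoc : ∀ i x y z, tgt i x = src i y → tgt i y = src i z →
    comp i (comp i x y) z = comp i x (comp i y z)
  interchange : ∀ {i j}, i < j → ∀ x y z w, tgt i x = src i y → tgt j x = src j z →
    tgt j y = src j w →
    comp j (comp i x y) (comp i z w) = comp i (comp j x z) (comp j y w)

namespace OmegaCat

/-- A strict functor. -/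
@[ext]
structure Hom (X Y : OmegaCat) : Type where
  toFun : X.Cell → Y.Cell
  map_src : ∀ i x, toFun (X.src i x) = Y.src i (toFun x)
  map_tgt : ∀ i x, toFun (X.tgt i x) = Y.tgt i (toFun x)
  map_comp : ∀ i x y, X.tgt i x = X.src i y →
    toFun (X.comp i x y) = Y.comp i (toFun x) (toFun y)

/-- The composite of strict functors. -/
def Hom.andThen {X Y Z : OmegaCat} (f : Hom X Y) (g : Hom Y Z) : Hom X Z where
  toFun := g.toFun ∘ f.toFun
  map_src i x := by simp [f.map_src, g.map_src]
  map_tgt i x := by simp [f.map_tgt, g.map_tgt]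
  map_comp i x y h := by
    show g.toFun (f.toFun _) = _
    rw [f.map_comp i x y h, g.map_comp]
    · rfl
    · rw [← f.map_tgt, ← f.map_src, h]

instance : Category.{0} OmegaCat where
  Hom := Hom
  id X := ⟨_root_.id, fun _ _ => rfl, fun _ _ => rfl, fun _ _ _ _ => rfl⟩
  comp := Hom.andThen

/-- The cells above dimension `n` are identities (no condition for `n = ω`, written `⊤`). -/
def dimLE (n : ℕ∞) : ObjectProperty OmegaCat := fun X =>
  ∀ m : ℕ, n ≤ (m : ℕ∞) → ∀ x : X.Cell, X.src m x = x

end OmegaCat

/-- Strict n-categories, as a full subcategory of omega-categories. -/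
abbrev NCat (n : ℕ∞) : Type 1 := (OmegaCat.dimLE n).FullSubcategory

instance categoryNCat (n : ℕ∞) : Category.{0} (NCat n) := ObjectProperty.FullSubcategory.category _

end Vale.Agent.P213
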