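import Vale.Agent.P213.OmegaCat

/-!
# P213: Street's orientals, by Steiner's description

For a partially ordered set `E`, `ori E` is Steiner's omega-category of the augmented directed
complex of chains of `E` (basis: strictly increasing sequences; differential: alternating sum of
omissions; positive cone: nonnegative combinations). For `E = {0 < ... < m}` it is the oriental.
-/

open CategoryTheory

noncomputable section

namespace Vale.Agent.P213

/-- A strictly increasing sequence of `q + 1` elements. -/
abbrev Chain (E : Type) [Preorder E] (q : ℕ) : Type := {c : Fin (q + 1) → E // StrictMono c}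

variable {E F G : Type} [PartialOrder E] [PartialOrder F] [PartialOrder G]

/-- Omission of the entry `i`. -/
def Chain.face {q : ℕ} (c : Chain E (q + 1)) (i : Fin (q + 2)) : Chain E q :=
  ⟨c.1 ∘ i.succAbove, c.2.comp (Fin.strictMono_succAbove i)⟩

/-- The boundary. -/
def bdry (q : ℕ) : (Chain E (q + 1) →₀ ℤ) →+ (Chain E q →₀ ℤ) :=
  Finsupp.liftAddHom fun c => ∑ i : Fin (q + 2), ((-1 : ℤ) ^ (i : ℕ)) • Finsupp.singleAddHom (c.face i)

/-- The augmentation. -/
def aug : (Chain E 0 →₀ ℤ) →+ ℤ := Finsupp.liftAddHom fun _ => AddMonoidHom.id ℤ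

/-- A cell: a double sequence of positive chains. -/
@[ext]
structure Table (E : Type) [PartialOrder E] : Type where
  neg : ∀ q, Chain E q →₀ ℤ
  pos : ∀ q, Chain E q →₀ ℤ
  neg_nonneg : ∀ q c, 0 ≤ neg q c
  pos_nonneg : ∀ q c, 0 ≤ pos q c
  bounded : ∃ N, ∀ q, N ≤ q → neg q = 0 ∧ pos q = 0
  aug_neg : aug (neg 0) = 1
  aug_pos : aug (pos 0) = 1
  bdry_neg : ∀ q, bdry q (neg (q + 1)) = pos q - neg q
  bdry_pos : ∀ q, bdry q (pos (q + 1)) = pos q - neg q

namespace Table

variable (i : ℕ) (x y : Table E)

/-- The source of dimension `i`. -/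
def src : Table E where
  neg q := if q ≤ i then x.neg q else 0
  pos q := if q < i then x.pos q else if q = i then x.neg q else 0
  neg_nonneg q c := by split_ifs <;> simp [x.neg_nonneg]
  pos_nonneg q c := by split_ifs <;> simp [x.neg_nonneg, x.pos_nonneg]
  bounded := ⟨i + 1, fun q h => by simp [show ¬ q ≤ i by omega, show ¬ q < i by omega,
    show ¬ q = i by omega]⟩
  aug_neg := by simp [x.aug_neg]
  aug_pos := by split_ifs <;> first | exact x.aug_pos | exact x.aug_neg | omega
  bdry_neg q := by
    rcases lt_trichotomy q i with h | h | h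
    · simp [show q + 1 ≤ i by omega, h, h.le, x.bdry_neg]
    · subst h; simp
    · simp [show ¬ q + 1 ≤ i by omega, show ¬ q ≤ i by omega, show ¬ q < i by omega,
        show ¬ q = i by omega]
  bdry_pos q := by
    rcases lt_trichotomy q i with h | h | h
    · rcases (show q + 1 ≤ i by omega).lt_or_eq with h' | h'
      · simp [h', h, h.le, x.bdry_pos]
      · subst h'; simp [x.bdry_neg]
    · subst h; simp
    · simp [show ¬ q + 1 < i by omega, show ¬ q + 1 = i by omega, show ¬ q ≤ i by omega,
        show ¬ q < i by omega, show ¬ q = i by omega]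

/-- The target of dimension `i`. -/
def tgt : Table E where
  neg q := if q < i then x.neg q else if q = i then x.pos q else 0
  pos q := if q ≤ i then x.pos q else 0
  neg_nonneg q c := by split_ifs <;> simp [x.neg_nonneg, x.pos_nonneg]
  pos_nonneg q c := by split_ifs <;> simp [x.pos_nonneg]
  bounded := ⟨i + 1, fun q h => by simp [show ¬ q ≤ i by omega, show ¬ q < i by omega,
    show ¬ q = i by omega]⟩
  aug_neg := by split_ifs <;> first | exact x.aug_pos | exact x.aug_neg | omega
  aug_pos := by simp [x.aug_pos]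
  bdry_neg q := by
    rcases lt_trichotomy q i with h | h | h
    · rcases (show q + 1 ≤ i by omega).lt_or_eq with h' | h'
      · simp [h', h, h.le, x.bdry_neg]
      · subst h'; simp [x.bdry_pos]
    · subst h; simp
    · simp [show ¬ q + 1 < i by omega, show ¬ q + 1 = i by omega, show ¬ q ≤ i by omega,
        show ¬ q < i by omega, show ¬ q = i by omega]
  bdry_pos q := by
    rcases lt_trichotomy q i with h | h | h
    · simp [show q + 1 ≤ i by omega, h, h.le, x.bdry_pos]
    · subst h; simp
    · simp [show ¬ q + 1 ≤ i by omega, show ¬ q ≤ i by omega, show ¬ q < i by omega,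
        show ¬ q = i by omega]

theorem eq_of_tgt_eq_src (h : x.tgt i = y.src i) :
    x.pos i = y.neg i ∧ ∀ q < i, x.neg q = y.neg q ∧ x.pos q = y.pos q := by
  refine ⟨?_, fun q hq => ⟨?_, ?_⟩⟩
  · simpa [tgt, src] using congrArg (fun z => z.pos i) h
  · simpa [tgt, src, hq, hq.le] using congrArg (fun z => z.neg q) h
  · simpa [tgt, src, hq, hq.le] using congrArg (fun z => z.pos q) h

open Classical in
/-- The composite along dimension `i` (the first argument when the pair is not composable). -/
def comp : Table E :=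
  if h : x.tgt i = y.src i then
    { neg := fun q => if q ≤ i then x.neg q else x.neg q + y.neg q
      pos := fun q => if q < i then x.pos q else if q = i then y.pos q else x.pos q + y.pos q
      neg_nonneg := fun q c => by
        have := x.neg_nonneg q c; have := y.neg_nonneg q c
        split_ifs <;> simp <;> omega
      pos_nonneg := fun q c => by
        have := x.pos_nonneg q c; have := y.pos_nonneg q c
        split_ifs <;> simp <;> omega
      bounded := by
        obtain ⟨N, hN⟩ := x.bounded; obtain ⟨M, hM⟩ := y.bounded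
        refine ⟨max (max N M) (i + 1), fun q hq => ?_⟩
        simp [hN q (by omega), hM q (by omega), show ¬ q ≤ i by omega, show ¬ q < i by omega,
          show ¬ q = i by omega]
      aug_neg := by simp [x.aug_neg]
      aug_pos := by split_ifs <;> first | exact x.aug_pos | exact y.aug_pos | omega
      bdry_neg := fun q => by
        obtain ⟨hp, hlow⟩ := eq_of_tgt_eq_src i x y h
        rcases lt_trichotomy q i with hq | hq | hq
        · simp [show q + 1 ≤ i by omega, hq, hq.le, x.bdry_neg]
        · subst hq; simp [map_add, x.bdry_neg, y.bdry_neg, hp]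
        · simp [show ¬ q + 1 ≤ i by omega, show ¬ q ≤ i by omega, show ¬ q < i by omega,
            show ¬ q = i by omega, map_add, x.bdry_neg, y.bdry_neg]; abel
      bdry_pos := fun q => by
        obtain ⟨hp, hlow⟩ := eq_of_tgt_eq_src i x y h
        rcases lt_trichotomy q i with hq | hq | hq
        · rcases (show q + 1 ≤ i by omega).lt_or_eq with h' | h'
          · simp [h', hq, hq.le, x.bdry_pos]
          · subst h'
            simp [y.bdry_pos, (hlow q (by omega)).1, (hlow q (by omega)).2]
        · subst hq; simp [map_add, x.bdry_pos, y.bdry_pos, hp]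
        · simp [show ¬ q + 1 < i by omega, show ¬ q + 1 = i by omega, show ¬ q ≤ i by omega,
            show ¬ q < i by omega, show ¬ q = i by omega, map_add, x.bdry_pos, y.bdry_pos]; abel }
  else x

end Table

namespace Table

theorem comp_of_eq {i : ℕ} {x y : Table E} (h : x.tgt i = y.src i) (q : ℕ) :
    (comp i x y).neg q = (if q ≤ i then x.neg q else x.neg q + y.neg q) ∧
      (comp i x y).pos q =
        if q < i then x.pos q else if q = i then y.pos q else x.pos q + y.pos q := by
  rw [comp, dif_pos h]
  exact ⟨rfl, rfl⟩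

/-- Two cells with the same entries are equal. -/
theorem ext' {x y : Table E} (h : ∀ q, x.neg q = y.neg q ∧ x.pos q = y.pos q) : x = y :=
  Table.ext (funext fun q => (h q).1) (funext fun q => (h q).2)

theorem src_comp (i : ℕ) (x y : Table E) (h : x.tgt i = y.src i) :
    (comp i x y).src i = x.src i := ext' fun q => by
  obtain ⟨h1, h2⟩ := comp_of_eq h q
  constructor <;> (simp only [src, h1, h2]; split_ifs <;> first | rfl | omega)

theorem tgt_comp (i : ℕ) (x y : Table E) (h : x.tgt i = y.src i) :
    (comp i x y).tgt i = y.tgt i := ext' fun q => by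
  obtain ⟨h1, h2⟩ := comp_of_eq h q
  obtain ⟨hp, hlow⟩ := eq_of_tgt_eq_src i x y h
  constructor <;> simp only [tgt, h1, h2] <;> rcases lt_trichotomy q i with hq | hq | hq
  · simp [hq, hq.le, (hlow q hq).1]
  · subst hq; simp
  · simp [show ¬ q < i by omega, show ¬ q = i by omega]
  · simp [hq, hq.le, (hlow q hq).2]
  · subst hq; simp
  · simp [show ¬ q ≤ i by omega]

theorem src_lo {i j : ℕ} (h : i < j) (x : Table E) :
    (x.src j).src i = x.src i ∧ (x.tgt j).src i = x.src i ∧
      (x.src j).tgt i = x.tgt i ∧ (x.tgt j).tgt i = x.tgt i := by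
  refine ⟨?_, ?_, ?_, ?_⟩ <;> refine ext' fun q => ⟨?_, ?_⟩ <;> simp only [src, tgt] <;>
    split_ifs <;> first | rfl | omega

theorem src_hi {i j : ℕ} (h : i < j) (x : Table E) :
    (x.src i).src j = x.src i ∧ (x.tgt i).src j = x.tgt i ∧
      (x.src i).tgt j = x.src i ∧ (x.tgt i).tgt j = x.tgt i := by
  refine ⟨?_, ?_, ?_, ?_⟩ <;> refine ext' fun q => ⟨?_, ?_⟩ <;> simp only [src, tgt] <;>
    split_ifs <;> first | rfl | omega

theorem src_self (i : ℕ) (x : Table E) :
    (x.src i).src i = x.src i ∧ (x.tgt i).src i = x.tgt i ∧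
      (x.src i).tgt i = x.src i ∧ (x.tgt i).tgt i = x.tgt i := by
  refine ⟨?_, ?_, ?_, ?_⟩ <;> refine ext' fun q => ⟨?_, ?_⟩ <;> simp only [src, tgt] <;>
    split_ifs <;> first | rfl | omega

theorem composable_hi {i j : ℕ} (hij : i < j) {x y : Table E} (h : x.tgt i = y.src i) :
    (x.src j).tgt i = (y.src j).src i ∧ (x.tgt j).tgt i = (y.tgt j).src i := by
  obtain ⟨-, -, h1, h2⟩ := src_lo hij x
  obtain ⟨h3, h4, -, -⟩ := src_lo hij y
  exact ⟨by rw [h1, h3, h], by rw [h2, h4, h]⟩

theorem src_comp_hi {i j : ℕ} (hij : i < j) (x y : Table E) (h : x.tgt i = y.src i) :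
    (comp i x y).src j = comp i (x.src j) (y.src j) := ext' fun q => by
  obtain ⟨h1, h2⟩ := comp_of_eq h q
  obtain ⟨h3, h4⟩ := comp_of_eq (composable_hi hij h).1 q
  rw [h3, h4]
  simp only [src, h1, h2]
  constructor <;> split_ifs <;> first | rfl | omega | simp

theorem tgt_comp_hi {i j : ℕ} (hij : i < j) (x y : Table E) (h : x.tgt i = y.src i) :
    (comp i x y).tgt j = comp i (x.tgt j) (y.tgt j) := ext' fun q => by
  obtain ⟨h1, h2⟩ := comp_of_eq h q
  obtain ⟨h3, h4⟩ := comp_of_eq (composable_hi hij h).2 q
  rw [h3, h4]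
  simp only [tgt, h1, h2]
  constructor <;> split_ifs <;> first | rfl | omega | simp

theorem unit_left (i : ℕ) (x : Table E) : comp i (x.src i) x = x := ext' fun q => by
  obtain ⟨h1, h2⟩ := comp_of_eq (show (x.src i).tgt i = x.src i from (src_self i x).2.2.1) q
  rw [h1, h2]
  simp only [src]
  constructor <;> split_ifs <;> first | rfl | omega | simp

theorem unit_right (i : ℕ) (x : Table E) : comp i x (x.tgt i) = x := ext' fun q => by
  have hc : x.tgt i = (x.tgt i).src i := (src_self i x).2.1.symm
  obtain ⟨h1, h2⟩ := comp_of_eq hc q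
  rw [h1, h2]
  simp only [tgt]
  constructor <;> split_ifs <;> first | rfl | omega | simp

theorem assoc (i : ℕ) (x y z : Table E) (h : x.tgt i = y.src i) (h' : y.tgt i = z.src i) :
    comp i (comp i x y) z = comp i x (comp i y z) := ext' fun q => by
  obtain ⟨a1, a2⟩ := comp_of_eq h q
  obtain ⟨b1, b2⟩ := comp_of_eq h' q
  obtain ⟨c1, c2⟩ := comp_of_eq (show (comp i x y).tgt i = z.src i by rw [tgt_comp i x y h, h']) q
  obtain ⟨d1, d2⟩ := comp_of_eq (show x.tgt i = (comp i y z).src i by rw [src_comp i y z h', h]) q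
  rw [c1, c2, d1, d2, a1, a2, b1, b2]
  constructor <;> split_ifs <;> first | rfl | omega | abel

theorem interchange {i j : ℕ} (hij : i < j) (x y z w : Table E) (hxy : x.tgt i = y.src i)
    (hxz : x.tgt j = z.src j) (hyw : y.tgt j = w.src j) :
    comp j (comp i x y) (comp i z w) = comp i (comp j x z) (comp j y w) := ext' fun q => by
  have hz : z.tgt i = x.tgt i := by
    rw [← (src_lo hij z).2.2.1, ← hxz, (src_lo hij x).2.2.2]
  have hw : w.src i = y.src i := by
    rw [← (src_lo hij w).1, ← hyw, (src_lo hij y).2.1]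
  have hzw : z.tgt i = w.src i := by rw [hz, hw, hxy]
  have hc1 : (comp i x y).tgt j = (comp i z w).src j := by
    rw [tgt_comp_hi hij x y hxy, src_comp_hi hij z w hzw, hxz, hyw]
  have hxz' : (comp j x z).tgt i = x.tgt i := by
    rw [← (src_lo hij (comp j x z)).2.2.1, src_comp j x z hxz, (src_lo hij x).2.2.1]
  have hyw' : (comp j y w).src i = y.src i := by
    rw [← (src_lo hij (comp j y w)).1, src_comp j y w hyw, (src_lo hij y).1]
  obtain ⟨a1, a2⟩ := comp_of_eq hxy q
  obtain ⟨b1, b2⟩ := comp_of_eq hzw q
  obtain ⟨c1, c2⟩ := comp_of_eq hxz q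
  obtain ⟨d1, d2⟩ := comp_of_eq hyw q
  obtain ⟨e1, e2⟩ := comp_of_eq hc1 q
  obtain ⟨f1, f2⟩ := comp_of_eq (show (comp j x z).tgt i = (comp j y w).src i by
    rw [hxz', hyw', hxy]) q
  rw [e1, e2, f1, f2, a1, a2, b1, b2, c1, c2, d1, d2]
  constructor <;> split_ifs <;> first | rfl | omega | abel

end Table

/-- Steiner's omega-category of the chains of a partially ordered set. -/
def ori (E : Type) [PartialOrder E] : OmegaCat where
  Cell := Table E
  src := Table.src
  tgt := Table.tgt
  comp := Table.comp
  src_src i x := (Table.src_self i x).1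
  src_tgt i x := (Table.src_self i x).2.1
  tgt_src i x := (Table.src_self i x).2.2.1
  tgt_tgt i x := (Table.src_self i x).2.2.2
  src_src_lo h x := (Table.src_lo h x).1
  src_tgt_lo h x := (Table.src_lo h x).2.1
  tgt_src_lo h x := (Table.src_lo h x).2.2.1
  tgt_tgt_lo h x := (Table.src_lo h x).2.2.2
  src_src_hi h x := (Table.src_hi h x).1
  src_tgt_hi h x := (Table.src_hi h x).2.1
  tgt_src_hi h x := (Table.src_hi h x).2.2.1
  tgt_tgt_hi h x := (Table.src_hi h x).2.2.2
  finite_dim x := by
    obtain ⟨N, hN⟩ := x.bounded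
    refine ⟨N, Table.ext' fun q => ?_⟩
    rcases lt_trichotomy q N with h | h | h
    · simp [Table.src, h, h.le]
    · subst h; simp [Table.src, hN q le_rfl]
    · simp [Table.src, hN q h.le, show ¬ q ≤ N by omega, show ¬ q < N by omega,
        show ¬ q = N by omega]
  src_comp := Table.src_comp
  tgt_comp := Table.tgt_comp
  src_comp_hi h := Table.src_comp_hi h
  tgt_comp_hi h := Table.tgt_comp_hi h
  unit_left := Table.unit_left
  unit_right := Table.unit_right
  assoc := Table.assoc
  interchange h := Table.interchange h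

open Classical in
/-- The image of a basic chain: itself when still strictly increasing, zero otherwise. -/
def Chain.push (f : E →o F) {q : ℕ} (c : Chain E q) : Chain F q →₀ ℤ :=
  if h : StrictMono (f ∘ c.1) then Finsupp.single ⟨f ∘ c.1, h⟩ 1 else 0

/-- The chain map of a monotone map. -/
def pushMap (f : E →o F) (q : ℕ) : (Chain E q →₀ ℤ) →+ (Chain F q →₀ ℤ) :=
  Finsupp.liftAddHom fun c => (smulAddHom ℤ (Chain F q →₀ ℤ)).flip (c.push f)

theorem pushMap_single (f : E →o F) (q : ℕ) (c : Chain E q) (a : ℤ) :
    pushMap f q (Finsupp.single c a) = a • c.push f := by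
  simp [pushMap]

theorem bdry_single (q : ℕ) (c : Chain E (q + 1)) (a : ℤ) :
    bdry q (Finsupp.single c a) = a • ∑ i : Fin (q + 2), ((-1 : ℤ) ^ (i : ℕ)) •
      Finsupp.single (c.face i) (1 : ℤ) := by
  simp [bdry, Finset.smul_sum, mul_comm]

theorem bdry_push (f : E →o F) (q : ℕ) (c : Chain E (q + 1)) :
    bdry q (c.push f) = ∑ i : Fin (q + 2), ((-1 : ℤ) ^ (i : ℕ)) • (c.face i).push f := by
  classical
  by_cases h : StrictMono (f ∘ c.1)
  · rw [Chain.push, dif_pos h, bdry_single, one_smul]
    refine Finset.sum_congr rfl fun i _ => ?_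
    rw [Chain.push, dif_pos (show StrictMono (f ∘ (c.face i).1) from
      h.comp (Fin.strictMono_succAbove i))]
    rfl
  rw [Chain.push, dif_neg h, map_zero]
  obtain ⟨k, hk⟩ : ∃ k : Fin (q + 1), f (c.1 k.castSucc) = f (c.1 k.succ) := by
    by_contra hne
    push Not at hne
    exact h (Fin.strictMono_iff_lt_succ.2 fun k =>
      lt_of_le_of_ne (f.monotone (c.2.monotone (Fin.castSucc_lt_succ (i := k)).le)) (hne k))
  have hdeg : ∀ i : Fin (q + 2), i ≠ k.castSucc → i ≠ k.succ → (c.face i).push f = 0 := by
    intro i h1 h2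
    rw [Chain.push, dif_neg]
    intro hm
    obtain ⟨a, ha⟩ := Fin.exists_succAbove_eq h1.symm
    obtain ⟨b, hb⟩ := Fin.exists_succAbove_eq h2.symm
    have hab : (f ∘ (c.face i).1) a = (f ∘ (c.face i).1) b := by
      show f (c.1 (i.succAbove a)) = f (c.1 (i.succAbove b))
      rw [ha, hb, hk]
    have := hm.injective hab
    subst this
    exact Fin.castSucc_lt_succ.ne (ha.symm.trans hb)
  have hne : k.castSucc ≠ k.succ := Fin.castSucc_lt_succ.ne
  refine ((Finset.sum_eq_add k.castSucc k.succ hne ?_ ?_ ?_).trans ?_).symm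
  · intro i _ hi
    rw [hdeg i hi.1 hi.2, smul_zero]
  · simp
  · simp
  have heq : f ∘ (c.face k.castSucc).1 = f ∘ (c.face k.succ).1 := by
    funext a
    show f (c.1 (k.castSucc.succAbove a)) = f (c.1 (k.succ.succAbove a))
    rcases lt_trichotomy a k with ha | rfl | ha
    · rw [Fin.succAbove_of_castSucc_lt _ _ (by simpa using ha),
        Fin.succAbove_of_castSucc_lt _ _
          ((Fin.castSucc_lt_castSucc_iff.2 ha).trans Fin.castSucc_lt_succ)]
    · rw [Fin.succAbove_castSucc_self, Fin.succAbove_succ_self]
      exact hk.symm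
    · rw [Fin.succAbove_of_le_castSucc _ _ (Fin.castSucc_le_castSucc_iff.2 ha.le),
        Fin.succAbove_of_le_castSucc _ _ (Fin.le_castSucc_iff.2 (Fin.succ_lt_succ_iff.2 ha))]
  have : (c.face k.castSucc).push f = (c.face k.succ).push f := by
    simp only [Chain.push, heq]
  rw [this, Fin.val_castSucc, Fin.val_succ, pow_succ, mul_neg_one, neg_smul, add_neg_cancel]

theorem bdry_pushMap (f : E →o F) (q : ℕ) (v : Chain E (q + 1) →₀ ℤ) :
    bdry q (pushMap f (q + 1) v) = pushMap f q (bdry q v) := by
  induction v using Finsupp.induction_linear with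
  | zero => simp
  | add a b ha hb => simp [map_add, ha, hb]
  | single c a =>
    rw [pushMap_single, bdry_single, map_zsmul, map_zsmul, bdry_push, map_sum]
    simp [pushMap_single]

theorem aug_pushMap (f : E →o F) (v : Chain E 0 →₀ ℤ) : aug (pushMap f 0 v) = aug v := by
  induction v using Finsupp.induction_linear with
  | zero => simp
  | add a b ha hb => simp [map_add, ha, hb]
  | single c a =>
    have h : StrictMono (f ∘ c.1) := fun a b hab => absurd hab (by omega)
    simp [pushMap_single, Chain.push, h, aug]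

theorem pushMap_nonneg (f : E →o F) (q : ℕ) {v : Chain E q →₀ ℤ} (hv : ∀ c, 0 ≤ v c)
    (d : Chain F q) : 0 ≤ pushMap f q v d := by
  classical
  rw [pushMap, Finsupp.liftAddHom_apply, Finsupp.sum, Finset.sum_apply']
  refine Finset.sum_nonneg fun c _ => ?_
  show 0 ≤ (v c • c.push f) d
  rw [Finsupp.smul_apply, smul_eq_mul]
  refine mul_nonneg (hv c) ?_
  unfold Chain.push
  split_ifs
  · rw [Finsupp.single_apply]; split_ifs <;> simp
  · simp

/-- The image of a cell. -/
def Table.push (f : E →o F) (x : Table E) : Table F where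
  neg q := pushMap f q (x.neg q)
  pos q := pushMap f q (x.pos q)
  neg_nonneg q := pushMap_nonneg f q (x.neg_nonneg q)
  pos_nonneg q := pushMap_nonneg f q (x.pos_nonneg q)
  bounded := by
    obtain ⟨N, hN⟩ := x.bounded
    exact ⟨N, fun q hq => by simp [hN q hq]⟩
  aug_neg := (aug_pushMap f _).trans x.aug_neg
  aug_pos := (aug_pushMap f _).trans x.aug_pos
  bdry_neg q := by rw [bdry_pushMap, x.bdry_neg, map_sub]
  bdry_pos q := by rw [bdry_pushMap, x.bdry_pos, map_sub]

theorem Table.push_src (f : E →o F) (i : ℕ) (x : Table E) :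
    (x.src i).push f = (x.push f).src i := Table.ext' fun q => by
  constructor <;> simp only [Table.push, Table.src] <;> split_ifs <;> simp

theorem Table.push_tgt (f : E →o F) (i : ℕ) (x : Table E) :
    (x.tgt i).push f = (x.push f).tgt i := Table.ext' fun q => by
  constructor <;> simp only [Table.push, Table.tgt] <;> split_ifs <;> simp

theorem Table.push_comp (f : E →o F) (i : ℕ) (x y : Table E) (h : x.tgt i = y.src i) :
    (Table.comp i x y).push f = Table.comp i (x.push f) (y.push f) := Table.ext' fun q => by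
  have h' : (x.push f).tgt i = (y.push f).src i := by rw [← push_tgt, ← push_src, h]
  obtain ⟨a1, a2⟩ := comp_of_eq h q
  obtain ⟨b1, b2⟩ := comp_of_eq h' q
  rw [b1, b2]
  simp only [Table.push, a1, a2]
  constructor <;> split_ifs <;> simp

/-- The functor of a monotone map. -/
def oriMap (f : E →o F) : ori E ⟶ ori F where
  toFun := Table.push f
  map_src := Table.push_src f
  map_tgt := Table.push_tgt f
  map_comp := Table.push_comp f

theorem push_push (f : E →o F) (g : F →o G) {q : ℕ} (c : Chain E q) :
    pushMap g q (c.push f) = c.push (g.comp f) := by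
  classical
  by_cases h : StrictMono (f ∘ c.1)
  · rw [Chain.push, dif_pos h, pushMap_single, one_smul]
    rfl
  · rw [Chain.push, dif_neg h, map_zero, Chain.push, dif_neg]
    intro h'
    refine h fun a b hab => lt_of_le_of_ne (f.monotone (c.2.monotone hab.le)) fun he => ?_
    exact (h' hab).ne (congrArg g he)

theorem oriMap_comp (f : E →o F) (g : F →o G) : oriMap (g.comp f) = oriMap f ≫ oriMap g := by
  refine OmegaCat.Hom.ext (funext fun x => Table.ext' fun q => ?_)
  have key : ∀ v, pushMap (g.comp f) q v = pushMap g q (pushMap f q v) := by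
    intro v
    induction v using Finsupp.induction_linear with
    | zero => simp
    | add a b ha hb => simp [map_add, ha, hb]
    | single c a => rw [pushMap_single, pushMap_single, map_zsmul, push_push]
  exact ⟨key _, key _⟩

theorem oriMap_id : oriMap (OrderHom.id : E →o E) = 𝟙 (ori E) := by
  refine OmegaCat.Hom.ext (funext fun x => Table.ext' fun q => ?_)
  have key : ∀ v, pushMap (OrderHom.id : E →o E) q v = v := by
    intro v
    induction v using Finsupp.induction_linear with
    | zero => simp
    | add a b ha hb => simp [map_add, ha, hb]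
    | single c a =>
      rw [pushMap_single, Chain.push, dif_pos (show StrictMono ((OrderHom.id : E →o E) ∘ c.1) from c.2),
        Finsupp.smul_single, smul_eq_mul, mul_one]
      rfl
  exact ⟨key _, key _⟩

end Vale.Agent.P213
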